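import Vale.Agent.P352.BW.Spec2
import Vale.Agent.P352.BW.Lm

/-!
# P352 BW, S0: local nets without regularity
-/

set_option linter.all false

noncomputable section

open MeasureTheory Filter Topology
open scoped ComplexConjugate InnerProductSpace BoundedContinuousFunction

namespace Vale.Agent.P352.BW.S0

open Vale.Agent.P132 (ModData expB jconj)
open UniformSpace (Completion)
open GF H246 H496 H755 H15

variable {D : Type*} [NormedAddCommGroup D] [InnerProductSpace ℂ D]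

/-- `BW.VNet` without `reg` -/
structure VNet (Q : Theory D) (A : (V → V) → D → D)
    (𝒜 : Set V → VonNeumannAlgebra (Completion D)) : Prop extends Rep Q A where
  fld : ∀ O B f, Q.fld B → In O f → Aff (𝒜 O) (B f)
  mono : ∀ O O', O ⊆ O' → ∀ X ∈ 𝒜 O, X ∈ 𝒜 O'
  cov : ∀ s L y O, ∀ X ∈ 𝒜 O, 0 < s → IsLor L →
    ∃ Y ∈ 𝒜 (sim s L y '' O), ∀ z, Y (Ue Q s L y z) = Ue Q s L y (X z)
  dual : ∀ a b X, IsNull a → IsNull b → GF.mdot a b = 1 →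
    (X ∈ 𝒜 (Wdg b a 0) ↔ X ∈ (𝒜 (Wdg a b 0)).commutant)
  cyc : ∀ O, IsOpen O → O.Nonempty → Dense {z | ∃ X ∈ 𝒜 O, X (om Q) = z}
  inn : ∀ a b Y, IsNull a → IsNull b → GF.mdot a b = 1 →
    (∀ K, IsCompact K → K ⊆ Wdg a b 0 → Y ∈ (𝒜 K).commutant) → Y ∈ (𝒜 (Wdg a b 0)).commutant
  bw : ∀ a b t L (E : ModData (𝒜 (Wdg a b 0)) (om Q)) z, IsNull a → IsNull b →
    GF.mdot a b = 1 → IsLor L →
    (∀ x, sim 1 L 0 x = x + ((Real.exp (-(2 * Real.pi * t)) - 1) * GF.mdot b x) • a +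
      ((Real.exp (2 * Real.pi * t) - 1) * GF.mdot a x) • b) → E.U t z = Ue Q 1 L 0 z

/-- `BW.LNet` without `reg` -/
structure LNet (Q : Theory D) (A : (V → V) → D → D)
    (𝒜 : Set V → VonNeumannAlgebra (Completion D)) : Prop extends Rep Q A where
  fld : ∀ O B f, Q.fld B → In O f → Aff (𝒜 O) (B f)
  mono : ∀ O O', O ⊆ O' → ∀ X ∈ 𝒜 O, X ∈ 𝒜 O'
  cov : ∀ s L y O, ∀ X ∈ 𝒜 O, 0 < s → IsLor L →
    ∃ Y ∈ 𝒜 (sim s L y '' O), ∀ z, Y (Ue Q s L y z) = Ue Q s L y (X z)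
  loc : ∀ a b, IsNull a → IsNull b → GF.mdot a b = 1 → ∀ X ∈ 𝒜 (Wdg b a 0),
    X ∈ (𝒜 (Wdg a b 0)).commutant
  bw : ∀ a b t L (E : ModData (𝒜 (Wdg a b 0)) (om Q)) z, IsNull a → IsNull b →
    GF.mdot a b = 1 → IsLor L →
    (∀ x, sim 1 L 0 x = x + ((Real.exp (-(2 * Real.pi * t)) - 1) * GF.mdot b x) • a +
      ((Real.exp (2 * Real.pi * t) - 1) * GF.mdot a x) • b) → E.U t z = Ue Q 1 L 0 z

def W1Stmt (Q : Theory D) (A : (V → V) → D → D)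
    (𝒜 : Set V → VonNeumannAlgebra (Completion D)) : Prop :=
  LNet Q A 𝒜 → ∀ O, IsOpen O → O.Nonempty → Dense {z | ∃ X ∈ 𝒜 O, X (om Q) = z}

def W2Stmt (Q : Theory D) (A : (V → V) → D → D)
    (𝒜 : Set V → VonNeumannAlgebra (Completion D)) : Prop :=
  LNet Q A 𝒜 → ∀ a b Y, IsNull a → IsNull b → GF.mdot a b = 1 →
    (∀ K, IsCompact K → K ⊆ Wdg a b 0 → Y ∈ (𝒜 K).commutant) → Y ∈ (𝒜 (Wdg a b 0)).commutant

def W3Stmt (Q : Theory D) (A : (V → V) → D → D)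
    (𝒜 : Set V → VonNeumannAlgebra (Completion D)) : Prop :=
  LNet Q A 𝒜 → ∀ a b X, IsNull a → IsNull b → GF.mdot a b = 1 →
    (X ∈ 𝒜 (Wdg b a 0) ↔ X ∈ (𝒜 (Wdg a b 0)).commutant)

def G1Stmt (Q : Theory D) (A : (V → V) → D → D)
    (𝒜 : Set V → VonNeumannAlgebra (Completion D)) : Prop :=
  VNet Q A 𝒜 → ∃ S : V → V → ℝ → Completion D →L[ℂ] Completion D,
    ∀ a b, IsNull a → IsNull b → GF.mdot a b = 1 → Nd Q 𝒜 a b (S a b) ∧
      Nonempty (ModData (𝒜 (Wdg a b 0)) (om Q)) ∧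
      (∀ c : ℝ, 0 < c → Nonempty (ModData (𝒜 (HM.Rg a b c)) (om Q))) ∧
      ∀ c : ℝ, 0 ≤ c → ∀ X ∈ 𝒜 (Wdg a b 0), ∃ Y ∈ 𝒜 (Wdg a b 0), Y * S a b c = S a b c * X

def G2Stmt (Q : Theory D) (A : (V → V) → D → D)
    (𝒜 : Set V → VonNeumannAlgebra (Completion D))
    (S : V → V → ℝ → Completion D →L[ℂ] Completion D) : Prop :=
  VNet Q A 𝒜 → (∀ a b, IsNull a → IsNull b → GF.mdot a b = 1 → Nd Q 𝒜 a b (S a b)) →
    ∀ s L r a b a' b' c z, 0 < s → 0 < r → IsLor L → IsNull a → IsNull b → IsNull a' →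
      IsNull b' → GF.mdot a b = 1 → GF.mdot a' b' = 1 → sim 1 L 0 a = r • a' →
      r • sim 1 L 0 b = b' → Ue Q s L 0 (S a b c z) = S a' b' (r / s * c) (Ue Q s L 0 z)

def G3Block (Q : Theory D) (A : (V → V) → D → D)
    (𝒜 : Set V → VonNeumannAlgebra (Completion D))
    (S : V → V → ℝ → Completion D →L[ℂ] Completion D) : Prop :=
  VNet Q A 𝒜 → (∀ a b, IsNull a → IsNull b → GF.mdot a b = 1 → Nd Q 𝒜 a b (S a b) ∧
      Nonempty (ModData (𝒜 (Wdg a b 0)) (om Q)) ∧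
      ∀ c : ℝ, 0 < c → Nonempty (ModData (𝒜 (HM.Rg a b c)) (om Q))) → G3Stmt Q S

theorem vnet_of {Q : Theory D} {A : (V → V) → D → D}
    {𝒜 : Set V → VonNeumannAlgebra (Completion D)} (N : LNet Q A 𝒜) (h1 : W1Stmt Q A 𝒜)
    (h2 : W2Stmt Q A 𝒜) (h3 : W3Stmt Q A 𝒜) : VNet Q A 𝒜 :=
  { N.toRep with
    fld := N.fld
    mono := N.mono
    cov := N.cov
    dual := fun a b X ha hb hab => h3 N a b X ha hb hab
    cyc := h1 N
    inn := fun a b Y ha hb hab => h2 N a b Y ha hb hab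
    bw := N.bw }

end Vale.Agent.P352.BW.S0

end
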