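import Vale.Agent.P352.BW.S0.Defs
import Vale.Agent.P352.HM.R
import Vale.Agent.P352.H755.R7d

/-!
# P352 BW: block G2
-/

set_option linter.all false

noncomputable section

open MeasureTheory Filter Topology
open scoped ComplexConjugate InnerProductSpace BoundedContinuousFunction

namespace Vale.Agent.P352.BW.S0

open GF H246 H496 H755 H15
open Vale.Agent.P132 (ModData)
open UniformSpace (Completion)

variable {D : Type*} [NormedAddCommGroup D] [InnerProductSpace ℂ D] {Q : Theory D}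
  {A : (V → V) → D → D} {𝒜 : Set V → VonNeumannAlgebra (Completion D)}

/-! ### Inverse similitudes -/

/-- the translation part of the inverse similitude -/
def yinv (s : ℝ) (L : Ix → V) (y : V) : V := -(sim s⁻¹ (linv L) 0 y)

lemma sim_linv2 {L : Ix → V} (hL : IsLor L) (x : V) : sim 1 (linv L) 0 (sim 1 L 0 x) = x := by
  have h := sim_linv hL (sim 1 L 0 x)
  have h2 : H755.simE 1 L one_pos hL (sim 1 (linv L) 0 (sim 1 L 0 x)) =
      H755.simE 1 L one_pos hL x := by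
    rw [H755.simE_apply, H755.simE_apply, h]
  exact (H755.simE 1 L one_pos hL).injective h2

lemma sim_at' (s : ℝ) (L : Ix → V) (x z : V) : sim s L x z = sim s L 0 z + x := HM.sim_at s L x z

lemma sim_right {s : ℝ} {L : Ix → V} (hs : 0 < s) (hL : IsLor L) (y : V) :
    sim s L y (yinv s L y) = 0 := by
  unfold yinv
  rw [sim_at', sim_s s L, sim_s s⁻¹ (linv L), ← neg_one_smul ℝ, smul_smul, simL_smul, sim_linv hL,
    smul_smul]
  have : s * (-1 * s⁻¹) = -1 := by field_simp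
  rw [this]
  simp

lemma sim_left {s : ℝ} {L : Ix → V} (hs : 0 < s) (hL : IsLor L) (y z : V) :
    sim s⁻¹ (linv L) (yinv s L y) (sim s L y z) = z := by
  unfold yinv
  rw [sim_at' s⁻¹, sim_at' s L y, sim_s s⁻¹ (linv L), sim_s s⁻¹ (linv L), simL_add, sim_s s L,
    simL_smul, sim_linv2 hL, smul_add, smul_smul, inv_mul_cancel₀ hs.ne', one_smul]
  abel

lemma img_left {s : ℝ} {L : Ix → V} (hs : 0 < s) (hL : IsLor L) (y : V) (O : Set V) :
    sim s⁻¹ (linv L) (yinv s L y) '' (sim s L y '' O) = O := by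
  rw [Set.image_image]
  simp only [sim_left hs hL, Set.image_id']

lemma Ue_one (z : Completion D) : Ue Q 1 GF.one 0 z = z := by
  have e : Q.U 1 GF.one (0 : V) = id := by
    funext v
    exact Uone v
  unfold Ue
  rw [e, Completion.map_id]
  rfl

lemma Ue_right (hU : UStmt Q A) {s : ℝ} {L : Ix → V} (hs : 0 < s) (hL : IsLor L) (y : V)
    (z : Completion D) : Ue Q s L y (Ue Q s⁻¹ (linv L) (yinv s L y) z) = z := by
  rw [hU.mul s L y s⁻¹ (linv L) _ z hs (inv_pos.2 hs) hL (isLor_linv hL), linv_id hL,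
    mul_inv_cancel₀ hs.ne', sim_right hs hL, Ue_one]

lemma Ue_left (hU : UStmt Q A) {s : ℝ} {L : Ix → V} (hs : 0 < s) (hL : IsLor L) (y : V)
    (z : Completion D) : Ue Q s⁻¹ (linv L) (yinv s L y) (Ue Q s L y z) = z := by
  obtain ⟨W, hW⟩ := hU.lin s L y hs hL
  have h : W (Ue Q s⁻¹ (linv L) (yinv s L y) (Ue Q s L y z)) = W z := by
    rw [hW, hW, Ue_right hU hs hL]
  exact W.injective h

/-- **naturality of the modular groups under the similitudes** -/
theorem nat_img (hE : EStmt (Completion D)) (hU : UStmt Q A) (h : VNet Q A 𝒜) {s : ℝ} {L : Ix → V}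
    {y : V} (hs : 0 < s) (hL : IsLor L) {O O' : Set V} (hO : sim s L y '' O = O')
    (E : ModData (𝒜 O) (om Q)) (E' : ModData (𝒜 O') (om Q)) (t : ℝ) (z : Completion D) :
    Ue Q s L y (E.U t z) = E'.U t (Ue Q s L y z) := by
  obtain ⟨W, hW⟩ := hU.lin s L y hs hL
  have hξ : W (om Q) = om Q := by rw [hW, hU.vac s L y hs hL]
  have h1 : ∀ X ∈ 𝒜 O, ∃ Y ∈ 𝒜 O', ∀ z, Y (W z) = W (X z) := by
    intro X hX
    obtain ⟨Y, hY, hYe⟩ := h.cov s L y O X hX hs hL
    rw [hO] at hY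
    exact ⟨Y, hY, fun z => by rw [hW, hW, hYe]⟩
  have h2 : ∀ Y ∈ 𝒜 O', ∃ X ∈ 𝒜 O, ∀ z, Y (W z) = W (X z) := by
    intro Y hY
    obtain ⟨X, hX, hXe⟩ := h.cov s⁻¹ (linv L) (yinv s L y) O' Y hY (inv_pos.2 hs) (isLor_linv hL)
    rw [← hO, img_left hs hL] at hX
    refine ⟨X, hX, fun z => ?_⟩
    have h3 := hXe (Ue Q s L y z)
    rw [Ue_left hU hs hL] at h3
    rw [hW, hW, h3, Ue_right hU hs hL]
  have h3 := hE (𝒜 O) (𝒜 O') (om Q) E E' W hξ h1 h2 t z
  rwa [hW, hW] at h3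

/-- the null deformations in terms of the modular groups -/
lemma S_mod {a b : V} {S : ℝ → Completion D →L[ℂ] Completion D} (hN : Nd Q 𝒜 a b S) {c t c0 : ℝ}
    (hc : 0 < c) (hct : c * (1 - Real.exp (-(2 * Real.pi * t))) = c0)
    (E : ModData (𝒜 (Wdg a b 0)) (om Q)) (F : ModData (𝒜 (HM.Rg a b c)) (om Q))
    (z : Completion D) : S c0 z = F.U t (E.U (-t) z) := by
  have h1 := (hN.hs c E F hc).mod t
  have h2 := congrArg (fun T : Completion D →L[ℂ] Completion D => T (E.U (-t) z)) h1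
  have h3 : F.U t (E.U (-t) z) =
      S (c * (1 - Real.exp (-(2 * Real.pi * t)))) (E.U t (E.U (-t) z)) := h2
  rw [h3, E.U_apply_neg, hct]

/-- block G2 -/
theorem g2 (hE : EStmt (Completion D)) (hU : UStmt Q A)
    (hN : ∀ a b, IsNull a → IsNull b → GF.mdot a b = 1 →
      Nonempty (ModData (𝒜 (Wdg a b 0)) (om Q)) ∧
      ∀ c : ℝ, 0 < c → Nonempty (ModData (𝒜 (HM.Rg a b c)) (om Q)))
    (S : V → V → ℝ → Completion D →L[ℂ] Completion D) : G2Stmt Q A 𝒜 S := by
  intro h hNd s L r a b a' b' c0 z hs hr hL ha hb ha' hb' hab hab' hLa hLb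
  obtain ⟨⟨E⟩, hR⟩ := hN a b ha hb hab
  obtain ⟨⟨E1⟩, hR1⟩ := hN a' b' ha' hb' hab'
  have hc : 0 < |c0| + 1 := by positivity
  set c : ℝ := |c0| + 1 with hcdef
  have hc1 : 0 < r / s * c := mul_pos (div_pos hr hs) hc
  obtain ⟨F⟩ := hR c hc
  obtain ⟨F1⟩ := hR1 (r / s * c) hc1
  have hlt : 0 < 1 - c0 / c := by
    have h1 : c0 < c := lt_of_le_of_lt (le_abs_self c0) (by rw [hcdef]; linarith)
    have h2 : c0 / c < 1 := (div_lt_one hc).2 h1
    linarith
  set t : ℝ := -(Real.log (1 - c0 / c)) / (2 * Real.pi) with htdef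
  have hpi : (2 * Real.pi) ≠ 0 := by positivity
  have hexp : Real.exp (-(2 * Real.pi * t)) = 1 - c0 / c := by
    have : -(2 * Real.pi * t) = Real.log (1 - c0 / c) := by
      rw [htdef]
      field_simp
    rw [this, Real.exp_log hlt]
  have e0 : c * (1 - Real.exp (-(2 * Real.pi * t))) = c0 := by
    rw [hexp]
    field_simp
    ring
  have e1 : r / s * c * (1 - Real.exp (-(2 * Real.pi * t))) = r / s * c0 := by
    rw [mul_assoc, e0]
  have i1 : sim s L 0 '' HM.Rg a b c = HM.Rg a' b' (r / s * c) := by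
    rw [HM.Rg_img hs hr hL hLa, hLb]
  have i0 : sim s L 0 '' Wdg a b 0 = Wdg a' b' 0 := by
    rw [← HM.Rg_zero, HM.Rg_img hs hr hL hLa, hLb, mul_zero, HM.Rg_zero]
  rw [S_mod (hNd a b ha hb hab) hc e0 E F, S_mod (hNd a' b' ha' hb' hab') hc1 e1 E1 F1,
    nat_img hE hU h hs hL i1 F F1, nat_img hE hU h hs hL i0 E E1]

end Vale.Agent.P352.BW.S0

end
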