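import Vale.Agent.P352.BW.Md

open MeasureTheory Filter Topology

namespace Vale.Agent.P352.BW

open GF H246 H496 H755 H15
open UniformSpace (Completion)

noncomputable section

variable {D : Type*} [NormedAddCommGroup D] [InnerProductSpace ℂ D]

/-- **Null deformations.** The operators `S a c`, `a` null, `c` real, are strongly continuous
one-parameter groups of unitary operators. They leave the vacuum invariant, transform under the
similitudes like special conformal transformations, and map the algebras of the regions `Rg a b c`,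
`0 ≤ c`, onto each other. The modular unitaries of the algebra of `Rg a b c` and the vacuum are the
products of `S a (c (1 - exp (-2πt)))` and the boosts. -/
structure Grp0 (Q : Theory D) (𝒜 : Set V → VonNeumannAlgebra (Completion D))
    (S : V → ℝ → Completion D →L[ℂ] Completion D) : Prop where
  zero : ∀ a, IsNull a → S a 0 = 1
  add : ∀ a c c', IsNull a → S a (c + c') = S a c * S a c'
  inn : ∀ a c z w, IsNull a → inner ℂ (S a c z) (S a c w) = inner ℂ z w
  cont : ∀ a z, IsNull a → Continuous fun c => S a c z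
  vac : ∀ a c, IsNull a → S a c (om Q) = om Q
  cov : ∀ s L r a b c z, 0 < s → 0 < r → IsLor L → IsNull a → IsNull b → sim 1 L 0 a = r • b →
    Ue Q s L 0 (S a c z) = S b (r / s * c) (Ue Q s L 0 z)
  geo : ∀ a b c c' X, IsNull a → IsNull b → GF.mdot a b = 1 → 0 ≤ c → 0 ≤ c' →
    (X ∈ 𝒜 (HM.Rg a b c) ↔ S a (c' - c) * X * S a (c - c') ∈ 𝒜 (HM.Rg a b c'))
  mod : ∀ a b c (L : ℝ → Ix → V), IsNull a → IsNull b → GF.mdot a b = 1 → 0 ≤ c →
    (∀ t, IsLor (L t)) → (∀ t x, sim 1 (L t) 0 x = x +
      ((Real.exp (-(2 * Real.pi * t)) - 1) * GF.mdot b x) • a +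
      ((Real.exp (2 * Real.pi * t) - 1) * GF.mdot a x) • b) →
    ∃ J : Completion D → Completion D, IsMod (𝒜 (HM.Rg a b c)) (om Q)
      (fun t z => S a (c * (1 - Real.exp (-(2 * Real.pi * t)))) (Ue Q 1 (L t) 0 z)) J

end

end Vale.Agent.P352.BW
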