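import Vale.Agent.P352.BW.Fin1
import Vale.Agent.P352.BW.H820.Tk
import Vale.Agent.P352.BW.H728.Geo
import Vale.Agent.P352.BW.H728.Grp
import Vale.Agent.P352.BW.Mb
import Vale.Agent.P352.BW.S0.Grp0
import Vale.Agent.P352.BW.S0.W2
import Vale.Agent.P352.BW.S0.W3
import Vale.Agent.P352.BW.S0.G1
import Vale.Agent.P352.BW.S0.G2
import Vale.Agent.P352.BW.S0.G3
import Vale.Agent.P352.BW.W1

/-!
# P352 BW, S0: the null deformations of a local net
-/

set_option linter.all false

noncomputable section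

open MeasureTheory Filter Topology

namespace Vale.Agent.P352.BW.S0

open GF H246 H496 H755 H15
open UniformSpace (Completion)
open Vale.Agent.P132 (ModData)

variable {D : Type*} [NormedAddCommGroup D] [InnerProductSpace ℂ D]
variable {Q : Theory D} {A : (V → V) → D → D}
  {𝒜 : Set V → VonNeumannAlgebra (Completion D)}

theorem w1 : W1Stmt Q A 𝒜 := fun N O hO hne => rs_gen hO hne fun B f hB hf => N.fld O B f hB hf

/-- wedge duality, the Reeh-Schlieder property and the inner regularity of the wedge algebras -/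
theorem LNet.vnet (N : LNet Q A 𝒜) : VNet Q A 𝒜 := vnet_of N w1 (w2 w1 tk) (w3 w1 tk)

/-- block G1 -/
theorem g1S : G1Stmt Q A 𝒜 := g1 eblock fun _ _ _ DM DN => fS DM DN

/-- **The null deformations** -/
theorem grp0_of (N : LNet Q A 𝒜) : ∃ S : V → V → ℝ → Completion D →L[ℂ] Completion D,
    (∀ a b, IsNull a → IsNull b → GF.mdot a b = 1 → Nd Q 𝒜 a b (S a b) ∧
      Nonempty (ModData (𝒜 (Wdg a b 0)) (om Q)) ∧
      (∀ c : ℝ, 0 < c → Nonempty (ModData (𝒜 (HM.Rg a b c)) (om Q))) ∧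
      ∀ c : ℝ, 0 ≤ c → ∀ X ∈ 𝒜 (Wdg a b 0), ∃ Y ∈ 𝒜 (Wdg a b 0), Y * S a b c = S a b c * X) ∧
    ∃ S0 : V → ℝ → Completion D →L[ℂ] Completion D, Grp0 Q 𝒜 S0 ∧
      ∀ a b c, IsNull a → IsNull b → GF.mdot a b = 1 → S0 a c = S a b c := by
  have hV : VNet Q A 𝒜 := N.vnet
  have hU : UStmt Q A := ublock N.toRep
  obtain ⟨S, hS0⟩ := g1S hV
  have hN : ∀ a b, IsNull a → IsNull b → GF.mdot a b = 1 → Nd Q 𝒜 a b (S a b) ∧
      Nonempty (ModData (𝒜 (Wdg a b 0)) (om Q)) ∧
      ∀ c : ℝ, 0 < c → Nonempty (ModData (𝒜 (HM.Rg a b c)) (om Q)) := fun a b ha hb hab =>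
    ⟨(hS0 a b ha hb hab).1, (hS0 a b ha hb hab).2.1, (hS0 a b ha hb hab).2.2.1⟩
  have hG3 : G3Stmt Q S := g3block S hV hN
  have hG2 : G2Stmt Q A 𝒜 S := g2 eblock hU (fun a b ha hb hab => (hN a b ha hb hab).2) S
  refine ⟨S, hS0, ?_⟩
  classical
  obtain ⟨β, hβ⟩ : ∃ β : V → V, ∀ a, IsNull a → IsNull (β a) ∧ GF.mdot a (β a) = 1 := by
    refine ⟨fun a => if ha : IsNull a then Classical.choose (H755.exists_dual ha) else 0,
      fun a ha => ?_⟩
    simp only [dif_pos ha]
    exact Classical.choose_spec (H755.exists_dual ha)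
  have hS : ∀ a b, IsNull a → IsNull b → GF.mdot a b = 1 → ∀ c, S a (β a) c = S a b c :=
    fun a b ha hb hab c => hG3.indep a (β a) b c ha (hβ a ha).1 hb (hβ a ha).2 hab
  have key : ∀ a, IsNull a → S a (β a) 0 = 1 ∧
      (∀ c c', S a (β a) (c + c') = S a (β a) c * S a (β a) c') ∧
      (∀ z, Continuous fun c => S a (β a) c z) ∧
      (∀ c z w, inner ℂ (S a (β a) c z) (S a (β a) c w) = inner ℂ z w) ∧
      ∀ c, S a (β a) c (om Q) = om Q := by
    intro a ha
    obtain ⟨hNd, hM, hR⟩ := hN a (β a) ha (hβ a ha).1 (hβ a ha).2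
    obtain ⟨-, -, i3, -⟩ := lo_S hNd hM (hR 1 one_pos)
    obtain ⟨E⟩ := hM
    obtain ⟨E'⟩ := hR 1 one_pos
    have hs := hNd.hs 1 E E' one_pos
    refine ⟨by simpa using hs.zero, fun c c' => by simpa using hs.add c c',
      fun z => by simpa using hs.cont z, i3, fun c => by simpa using hs.xi c⟩
  refine ⟨fun a c => S a (β a) c, ⟨fun a ha => (key a ha).1,
    fun a c c' ha => (key a ha).2.1 c c', fun a c z w ha => (key a ha).2.2.2.1 c z w,
    fun a z ha => (key a ha).2.2.1 z, fun a c ha => (key a ha).2.2.2.2 c,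
    fun s L r a b c z hs hr hL ha hb hab => ?_,
    fun a b c c' X ha hb hab hc hc' => ?_, fun a b c L ha hb hab hc hL hx => ?_⟩,
    fun a b c ha hb hab => hS a b ha hb hab c⟩
  · -- covariance
    obtain ⟨hb0, hab0⟩ := hβ a ha
    have hn : IsNull (r • sim 1 L 0 (β a)) := by
      have h1 := isNull_lor hL hb0
      exact ⟨by rw [md_smul, md_smul_l, h1.1]; simp, mul_pos hr h1.2⟩
    have hd : GF.mdot b (r • sim 1 L 0 (β a)) = 1 := by
      have h1 : GF.mdot (sim 1 L 0 a) (sim 1 L 0 (β a)) = 1 := by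
        rw [mdot_sim hL, hab0]
      rw [hab, md_smul_l] at h1
      rw [md_smul]
      exact h1
    have h := hG2 hV (fun a b ha hb hab => (hN a b ha hb hab).1) s L r a (β a) b
      (r • sim 1 L 0 (β a)) c z hs hr hL ha hb0 hb hn hab0 hd hab rfl
    rw [h, hS b (r • sim 1 L 0 (β a)) hb hn hd]
  · obtain ⟨hNd, hM, hR⟩ := hN a b ha hb hab
    obtain ⟨k1, k2, -⟩ := key a ha
    have e : ∀ c, S a (β a) c = S a b c := hS a b ha hb hab
    simp only [e] at k1 k2 ⊢
    have g : ∀ {c : ℝ}, 0 ≤ c → ∀ X, X ∈ 𝒜 (Wdg a b 0) ↔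
        S a b c * X * S a b (-c) ∈ 𝒜 (HM.Rg a b c) := fun {c} hc X =>
      BW.H728.geo N.mono ha hb hab hNd hM hc (fun h => hR c h) k1 X
    have m : ∀ c, S a b c * S a b (-c) = 1 := fun c => by rw [← k2, add_neg_cancel, k1]
    have h1 := g hc (S a b (-c) * X * S a b c)
    have h2 := g hc' (S a b (-c) * X * S a b c)
    have e1 : S a b c * (S a b (-c) * X * S a b c) * S a b (-c) = X := by
      calc S a b c * (S a b (-c) * X * S a b c) * S a b (-c) =
          (S a b c * S a b (-c)) * X * (S a b c * S a b (-c)) := by simp only [mul_assoc]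
        _ = X := by rw [m, one_mul, mul_one]
    have e2 : S a b c' * (S a b (-c) * X * S a b c) * S a b (-c') =
        S a b (c' - c) * X * S a b (c - c') := by
      rw [sub_eq_add_neg, sub_eq_add_neg, k2, k2]
      simp only [mul_assoc]
    rw [e1] at h1
    rw [e2] at h2
    exact h1.symm.trans h2
  · -- the modular unitaries
    obtain ⟨hNd, ⟨E⟩, hR⟩ := hN a b ha hb hab
    have hbw : ∀ t z, E.U t z = Ue Q 1 (L t) 0 z := fun t z =>
      N.bw a b t (L t) E z ha hb hab (hL t) (hx t)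
    have e : ∀ c, S a (β a) c = S a b c := hS a b ha hb hab
    rcases hc.eq_or_lt with rfl | hc
    · have h0 : HM.Rg a b 0 = Wdg a b 0 := HM.Rg_zero a b
      rw [h0]
      refine ⟨fun x => E.J x, ?_⟩
      have e3 : (fun (t : ℝ) (z : Completion D) => S a (β a)
          ((0 : ℝ) * (1 - Real.exp (-(2 * Real.pi * t)))) (Ue Q 1 (L t) 0 z)) =
          fun t z => E.U t z := by
        funext t z
        rw [zero_mul, (key a ha).1, ← hbw]
        rfl
      rw [e3]
      exact isMod E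
    · obtain ⟨E'⟩ := hR c hc
      refine ⟨fun x => E'.J x, ?_⟩
      have e3 : (fun (t : ℝ) (z : Completion D) => S a (β a)
          (c * (1 - Real.exp (-(2 * Real.pi * t)))) (Ue Q 1 (L t) 0 z)) =
          fun t z => E'.U t z := by
        funext t z
        have h1 := (hNd.hs c E E' hc).mod t
        have h2 : E'.U t z = (S a b (c * (1 - Real.exp (-(2 * Real.pi * t)))) * E.U t) z := by
          rw [h1]
        rw [h2, e, ← hbw]
        rfl
      rw [e3]
      exact isMod E'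

/-- **The null deformations of a local net** exist, without any regularity of the domain. -/
theorem grp0 (N : LNet Q A 𝒜) : ∃ S : V → ℝ → Completion D →L[ℂ] Completion D, Grp0 Q 𝒜 S := by
  obtain ⟨-, -, S, hS, -⟩ := grp0_of N
  exact ⟨S, hS⟩

end Vale.Agent.P352.BW.S0

end
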