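import Vale.Agent.P352.BW.S0.Main
import Vale.Agent.P352.BW.Fe4
import Vale.Agent.P352.BW.H234.ModU
import Vale.Agent.P352.BW.H284.Smo

/-!
# P352 BW: null deformations, regularity and conformal invariance
-/

set_option linter.all false

noncomputable section

open MeasureTheory Filter Topology
open scoped ComplexConjugate InnerProductSpace BoundedContinuousFunction

namespace Vale.Agent.P352.BW

open Vale.Agent.P132 (ModData expB)
open UniformSpace (Completion)
open GF H246 H496 H755 H15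

/-- the modular unitaries are unique -/
theorem uq (H : Type*) [NormedAddCommGroup H] [InnerProductSpace ℂ H] [CompleteSpace H] :
    UqStmt H := fun _ _ E _ _ h => isMod_unique E h

variable {D : Type*} [NormedAddCommGroup D] [InnerProductSpace ℂ D]
  {Q : Theory D} {A : (V → V) → D → D} {𝒜 : Set V → VonNeumannAlgebra (Completion D)}
  {T : Ix → Ix → Fld D} {J : Ix → Fld D} {S S' : V → ℝ → Completion D →L[ℂ] Completion D}

/-- if the groups `S a` leave the domain invariant, so do the modular unitaries -/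
theorem Gr0.inv (h : Gr0 Q 𝒜 S) (hG : TfGen Q) (N : LNm Q A 𝒜)
    (hI : ∀ a c (x : D), IsNull a → ∃ y : D, S a c (x : Completion D) = y) : Inv Q 𝒜 := by
  obtain ⟨a, b, ha, hb, hab⟩ := exists_pair'
  refine ⟨a, b, ha, hb, hab, fun V J hM t v => ?_⟩
  obtain ⟨E⟩ := N.modW ha hb hab
  obtain ⟨E'⟩ := N.modR ha hb hab zero_le_one
  obtain ⟨y, hy⟩ := hI a (1 * (1 - Real.exp (-(2 * Real.pi * t))))
    (Q.U 1 (bst a b (Real.exp (-(2 * Real.pi * t)) - 1)
        (Real.exp (2 * Real.pi * t) - 1)) 0 v) ha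
  refine ⟨y, ?_⟩
  rw [isMod_unique E' hM t v, h.mod (ublock N.toRep) (fun a b t L E z ha hb hab hL hx =>
    N.bw hG a b t L E z ha hb hab hL hx) ha hb hab zero_le_one E E' t v,
    H284.EU N hG ha hb hab E v t, hy]

/-- the null deformations of a theory are unique -/
theorem Gr0.uniq' (hG : TfGen Q) (N : LNm Q A 𝒜) (h : Gr0 Q 𝒜 S) (h' : Gr0 Q 𝒜 S') {a : V}
    (ha : IsNull a) (c : ℝ) : S a c = S' a c := by
  have k : ∀ c < (1 : ℝ), S a c = S' a c := fun c hc =>
    ContinuousLinearMap.ext fun z => h.uniq hG N h' ha hc z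
  rcases lt_or_ge c 1 with hc | hc
  · exact k c hc
  · have e := k (-c) (by linarith)
    calc S a c = S a c * (S' a (-c) * S' a c) := by rw [h'.neg_mul ha, mul_one]
      _ = (S a c * S a (-c)) * S' a c := by rw [mul_assoc, e]
      _ = S' a c := by rw [h.mul_neg ha, one_mul]

/-- **Null deformations, regularity and conformal invariance.** -/
theorem main_all (hT : Q.IsStress T) (hJ : IsVirial Q T J) (hP : ND.PCh Q T A) (hG : TfGen Q)
    (N : LNm Q A 𝒜) :
    (∃ S, Grp0 Q 𝒜 S) ∧ ∀ S, Grp0 Q 𝒜 S →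
      ((Inv Q 𝒜 ∨ ∀ a c (x : D), IsNull a → ∃ y : D, S a c (x : Completion D) = y) →
        Smo Q 𝒜) ∧
      (Smo Q 𝒜 ↔ ∃ G, Dif S G) ∧
      ∀ G, Dif S G →
        N86.ConfInv Q T ∧ MHam Q A 𝒜 G ∧ (∀ a x, IsNull a → 0 ≤ (inner ℂ x (G a x)).re) ∧
        (∃ C : D → D, NG.Neutral Q T J A C ∧ NG.ConfC Q A G C) ∧
        (∀ m n, NG.LocF Q G (T m n)) ∧ (∀ m, NG.LocF Q G (J m)) ∧
        (NG.Cyc Q T J → ConfGen Q A G) := by
  refine ⟨grp0_lnm hG N, fun S hS => ⟨fun h => ?_, ?_⟩⟩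
  · exact inv_smo' (uq _) hG N (h.elim id fun h => hS.gr0.inv hG N h)
  · exact main_g (uq _) hT hJ hP hG N hS.gr0

end Vale.Agent.P352.BW

end
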