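import Vale.Agent.P352.BW.S0.Fin
import Vale.Agent.P352.BW.H649.Lw
import Vale.Agent.P352.BW.H728.Der
import Vale.Agent.P352.BW.Fe3
import Vale.Agent.P352.BW.Gr0

/-!
# P352 BW, S0: the null deformations of a local net and their differentiability
-/

set_option linter.all false

noncomputable section

open MeasureTheory Filter Topology

namespace Vale.Agent.P352.BW

open GF H246 H496 H755 H15
open UniformSpace (Completion)
open Vale.Agent.P132 (ModData)

variable {D : Type*} [NormedAddCommGroup D] [InnerProductSpace ℂ D]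
variable {Q : Theory D} {T : Ix → Ix → Fld D} {J : Ix → Fld D} {A : (V → V) → D → D}
  {𝒜 : Set V → VonNeumannAlgebra (Completion D)}

theorem LNm.snet (N : LNm Q A 𝒜) (hG : TfGen Q) : S0.LNet Q A 𝒜 :=
  { N.toRep with
    fld := N.fld
    mono := N.mono
    cov := N.cov
    loc := fun a b ha hb hab X hX => N.loc a b X ha hb hab hX
    bw := fun a b t L E z ha hb hab hL h => N.bw hG a b t L E z ha hb hab hL h }

/-- **The null deformations of a local net** -/
theorem grp0_lnm (hG : TfGen Q) (N : LNm Q A 𝒜) :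
    ∃ S : V → ℝ → Completion D →L[ℂ] Completion D, Grp0 Q 𝒜 S := S0.grp0 (N.snet hG)

theorem Grp0.gr0 {S : V → ℝ → Completion D →L[ℂ] Completion D} (h : Grp0 Q 𝒜 S) : Gr0 Q 𝒜 S :=
  ⟨h.zero, h.add, h.inn, h.cont, h.vac, h.cov, h.geo⟩

/-- block E -/
theorem gr0_of (hG : TfGen Q) (N : LNm Q A 𝒜) :
    ∃ S : V → ℝ → Completion D →L[ℂ] Completion D, Gr0 Q 𝒜 S := by
  obtain ⟨S, hS⟩ := grp0_lnm hG N
  exact ⟨S, hS.gr0⟩

end Vale.Agent.P352.BW

end
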