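import Vale.Agent.P352.BW.Mon2
import Vale.Agent.P352.BW.Fe4

/-!
# P352 BW: the generators of the null deformations are positive
-/

set_option linter.all false

noncomputable section

open MeasureTheory Filter Topology
open scoped ComplexConjugate InnerProductSpace BoundedContinuousFunction

namespace Vale.Agent.P352.BW

open Vale.Agent.P132 (ModData expB)
open UniformSpace (Completion)
open GF H246 H496 H755 H15

namespace P0

section abs

variable {H : Type*} [NormedAddCommGroup H] [InnerProductSpace ℂ H] [CompleteSpace H]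
  {M N : VonNeumannAlgebra H} {ξ : H} {S : ℝ → H →L[ℂ] H}

/-- vectors in the domains of both generators -/
theorem pos_both (E : ModData M ξ) (E1 : ModData N ξ) (hle : ∀ X ∈ N, X ∈ M) (h0 : S 0 = 1)
    (hn : ∀ c z, ‖S c z‖ ≤ ‖z‖) (hc : ∀ z, Continuous fun c => S c z)
    (hm : ∀ t z, E1.U t z = S (1 - Real.exp (-(2 * Real.pi * t))) (E.U t z)) {x k g : H}
    (hk : HasDerivAt (fun t : ℝ => E.U t x) (Complex.I • k) 0)
    (hg : HasDerivAt (fun c : ℝ => S c x) (Complex.I • g) 0) : 0 ≤ (⟪x, g⟫_ℂ).re := by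
  have hτ : HasDerivAt (fun t : ℝ => 1 - Real.exp (-(2 * Real.pi * t))) (2 * Real.pi) 0 := by
    have h1 : HasDerivAt (fun e : ℝ => Real.exp (-(2 * Real.pi * e))) (-(2 * Real.pi)) 0 := by
      have := (((hasDerivAt_id (0 : ℝ)).const_mul (2 * Real.pi)).neg).exp
      simpa using this
    refine (h1.const_sub 1).congr_deriv ?_
    ring
  have hS : HasDerivAt (fun t : ℝ => S (1 - Real.exp (-(2 * Real.pi * t))) x)
      ((2 * Real.pi : ℝ) • (Complex.I • g)) 0 := by
    have h1 : HasDerivAt (fun c : ℝ => S c x) (Complex.I • g)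
        ((fun t : ℝ => 1 - Real.exp (-(2 * Real.pi * t))) 0) := by
      show HasDerivAt _ _ (1 - Real.exp (-(2 * Real.pi * 0)))
      rw [mul_zero, neg_zero, Real.exp_zero, sub_self]
      exact hg
    exact h1.scomp (0 : ℝ) hτ
  have h0' : S (1 - Real.exp (-(2 * Real.pi * 0))) = 1 := by
    rw [mul_zero, neg_zero, Real.exp_zero, sub_self, h0]
  have h1 := JB.prod_der (fun t : ℝ => S (1 - Real.exp (-(2 * Real.pi * t))))
    (fun t z => hn _ z) (fun z => (hc z).comp (by fun_prop)) h0'
    (w := (2 * Real.pi : ℝ) • (Complex.I • g)) hk (by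
      simp only [JB.U_zero E]
      exact hS)
  have e1 : (fun t : ℝ => E1.U t x) = fun t : ℝ =>
      S (1 - Real.exp (-(2 * Real.pi * t))) (E.U t x) := funext fun t => hm t x
  have e2 : (2 * Real.pi : ℝ) • (Complex.I • g) + Complex.I • k =
      Complex.I • (k + ((2 * Real.pi : ℝ) : ℂ) • g) := by
    rw [smul_add, add_comm, smul_comm Complex.I, Complex.coe_smul]
  rw [e2, ← e1] at h1
  have h2 := Mon.gen_le E E1 hle hk h1
  rw [inner_add_right, inner_smul_right, Complex.add_re, Complex.re_ofReal_mul] at h2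
  have h3 : 0 ≤ (2 * Real.pi) * (⟪x, g⟫_ℂ).re := by linarith
  exact nonneg_of_mul_nonneg_right h3 (by positivity)

/-- means of continuous functions -/
theorem mean_lim {f : ℝ → H} (hf : Continuous f) :
    Tendsto (fun e : ℝ => e⁻¹ • ∫ t in (0 : ℝ)..e, f t) (𝓝[≠] 0) (𝓝 (f 0)) := by
  have h := intervalIntegral.integral_hasDerivAt_right (hf.intervalIntegrable 0 0)
    (hf.stronglyMeasurableAtFilter _ _) hf.continuousAt
  have h1 := hasDerivAt_iff_tendsto_slope_zero.1 h
  simpa using h1

variable (E : ModData M ξ)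

theorem U_mean (z : H) (e : ℝ) :
    HasDerivAt (fun s : ℝ => E.U s (∫ t in (0 : ℝ)..e, E.U t z)) (E.U e z - z) 0 := by
  have hf : Continuous fun t : ℝ => E.U t z := E.continuous_U_apply z
  have e1 : (fun s : ℝ => E.U s (∫ t in (0 : ℝ)..e, E.U t z)) = fun s : ℝ =>
      (∫ t in (0 : ℝ)..(s + e), E.U t z) - ∫ t in (0 : ℝ)..s, E.U t z := by
    funext s
    rw [← ContinuousLinearMap.intervalIntegral_comp_comm (E.U s) (hf.intervalIntegrable 0 e),
      intervalIntegral.integral_interval_sub_left (hf.intervalIntegrable _ _)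
        (hf.intervalIntegrable _ _)]
    have e2 : ∀ t : ℝ, E.U s (E.U t z) = E.U (s + t) z := fun t => (E.U_add_apply s t z).symm
    simp only [e2]
    rw [intervalIntegral.integral_comp_add_left (fun t => E.U t z) s, add_zero]
  rw [e1]
  have d : ∀ u : ℝ, HasDerivAt (fun u : ℝ => ∫ t in (0 : ℝ)..u, E.U t z) (E.U u z) u := fun u =>
    intervalIntegral.integral_hasDerivAt_right (hf.intervalIntegrable 0 u)
      (hf.stronglyMeasurableAtFilter _ _) hf.continuousAt
  have h1 : HasDerivAt (fun s : ℝ => ∫ t in (0 : ℝ)..(s + e), E.U t z) (E.U e z) 0 := by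
    have := HasDerivAt.comp_add_const (0 : ℝ) e (by rw [zero_add]; exact d e)
    simpa using this
  have h2 := h1.sub (d 0)
  rw [JB.U_zero E] at h2
  exact h2

theorem S_mean (h0 : S 0 = 1) (ha : ∀ c c', S (c + c') = S c * S c')
    (hn : ∀ c z, ‖S c z‖ ≤ ‖z‖) (hc : ∀ z, Continuous fun c => S c z)
    (hv : ∀ t c z, E.U t (S c z) = S (Real.exp (-(2 * Real.pi * t)) * c) (E.U t z)) {z g : H}
    (hg : HasDerivAt (fun c : ℝ => S c z) g 0) (e : ℝ) :
    HasDerivAt (fun c : ℝ => S c (∫ t in (0 : ℝ)..e, E.U t z))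
      (∫ t in (0 : ℝ)..e, Real.exp (2 * Real.pi * t) • E.U t g) 0 := by
  have hf : Continuous fun t : ℝ => E.U t z := E.continuous_U_apply z
  have hf' : Continuous fun t : ℝ => E.U t g := E.continuous_U_apply g
  have hexp : Continuous fun t : ℝ => Real.exp (2 * Real.pi * t) := by fun_prop
  have e1 : (fun c : ℝ => S c (∫ t in (0 : ℝ)..e, E.U t z)) = fun c : ℝ =>
      ∫ t in (0 : ℝ)..e, S c (E.U t z) := by
    funext c
    rw [ContinuousLinearMap.intervalIntegral_comp_comm (S c) (hf.intervalIntegrable 0 e)]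
  rw [e1]
  have hd0 : ∀ t : ℝ, HasDerivAt (fun c : ℝ => S c (E.U t z))
      (Real.exp (2 * Real.pi * t) • E.U t g) 0 := by
    intro t
    have e2 : (fun c : ℝ => S c (E.U t z)) =
        fun c : ℝ => E.U t (S (Real.exp (2 * Real.pi * t) * c) z) := by
      funext c
      rw [hv t, ← mul_assoc, ← Real.exp_add, neg_add_cancel, Real.exp_zero, one_mul]
    rw [e2]
    have h1 : HasDerivAt (fun c : ℝ => S c z) g (Real.exp (2 * Real.pi * t) * 0) := by
      rw [mul_zero]; exact hg
    have h2 : HasDerivAt (fun c : ℝ => Real.exp (2 * Real.pi * t) * c)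
        (Real.exp (2 * Real.pi * t)) 0 := by
      simpa using (hasDerivAt_id (0 : ℝ)).const_mul (Real.exp (2 * Real.pi * t))
    have h3 := h1.scomp (0 : ℝ) h2
    have h4 := ((E.U t).restrictScalars ℝ).hasFDerivAt.comp_hasDerivAt (0 : ℝ) h3
    refine h4.congr_deriv ?_
    simp
  have hd : ∀ t c : ℝ, HasDerivAt (fun c : ℝ => S c (E.U t z))
      (Real.exp (2 * Real.pi * t) • S c (E.U t g)) c := by
    intro t c
    have e3 : (fun c' : ℝ => S c' (E.U t z)) = fun c' : ℝ => S c (S (c' - c) (E.U t z)) := by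
      funext c'
      have := ha c (c' - c)
      rw [add_sub_cancel] at this
      rw [this]
      rfl
    rw [e3]
    have h1 : HasDerivAt (fun c' : ℝ => S (c' - c) (E.U t z))
        (Real.exp (2 * Real.pi * t) • E.U t g) c := by
      have h2 : HasDerivAt (fun c : ℝ => S c (E.U t z))
          (Real.exp (2 * Real.pi * t) • E.U t g) (c - c) := by
        rw [sub_self]; exact hd0 t
      exact HasDerivAt.comp_sub_const c c h2
    have h4 := ((S c).restrictScalars ℝ).hasFDerivAt.comp_hasDerivAt c h1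
    refine h4.congr_deriv ?_
    simp
  have key := intervalIntegral.hasDerivAt_integral_of_dominated_loc_of_deriv_le
    (𝕜 := ℝ) (μ := volume) (a := (0 : ℝ)) (b := e) (x₀ := (0 : ℝ)) (s := Set.univ)
    (F := fun c t => S c (E.U t z))
    (F' := fun c t => Real.exp (2 * Real.pi * t) • S c (E.U t g))
    (bound := fun t => Real.exp (2 * Real.pi * t) * ‖g‖) univ_mem
    (Eventually.of_forall fun c => ((S c).continuous.comp hf).aestronglyMeasurable)
    (((S 0).continuous.comp hf).intervalIntegrable _ _)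
    ((hexp.smul ((S 0).continuous.comp hf')).aestronglyMeasurable)
    (Eventually.of_forall fun t _ c _ => by
      rw [norm_smul, Real.norm_of_nonneg (Real.exp_pos _).le]
      refine mul_le_mul_of_nonneg_left ((hn _ _).trans ?_) (Real.exp_pos _).le
      exact (JB.norm_U E t g).le)
    ((hexp.mul continuous_const).intervalIntegrable _ _)
    (Eventually.of_forall fun t _ c _ => hd t c)
  have h5 := key.2
  simp only [h0] at h5
  exact h5

/-- **The generator is positive** -/
theorem pos (E1 : ModData N ξ) (hle : ∀ X ∈ N, X ∈ M) (h0 : S 0 = 1)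
    (ha : ∀ c c', S (c + c') = S c * S c') (hn : ∀ c z, ‖S c z‖ ≤ ‖z‖)
    (hc : ∀ z, Continuous fun c => S c z)
    (hm : ∀ t z, E1.U t z = S (1 - Real.exp (-(2 * Real.pi * t))) (E.U t z))
    (hv : ∀ t c z, E.U t (S c z) = S (Real.exp (-(2 * Real.pi * t)) * c) (E.U t z)) {z g : H}
    (hg : HasDerivAt (fun c : ℝ => S c z) (Complex.I • g) 0) : 0 ≤ (⟪z, g⟫_ℂ).re := by
  have hf : Continuous fun t : ℝ => E.U t z := E.continuous_U_apply z
  have hexp : Continuous fun t : ℝ => Real.exp (2 * Real.pi * t) := by fun_prop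
  have hf' : Continuous fun t : ℝ => Real.exp (2 * Real.pi * t) • E.U t g :=
    hexp.smul (E.continuous_U_apply g)
  have h1 : Tendsto (fun e : ℝ => e⁻¹ • ∫ t in (0 : ℝ)..e, E.U t z) (𝓝[≠] 0) (𝓝 z) := by
    have := mean_lim hf
    rwa [JB.U_zero E] at this
  have h2 : Tendsto (fun e : ℝ => e⁻¹ • ∫ t in (0 : ℝ)..e, Real.exp (2 * Real.pi * t) • E.U t g)
      (𝓝[≠] 0) (𝓝 g) := by
    have := mean_lim hf'
    rw [JB.U_zero E, mul_zero, Real.exp_zero, one_smul] at this
    exact this
  have h3 : Tendsto (fun e : ℝ => (⟪e⁻¹ • ∫ t in (0 : ℝ)..e, E.U t z,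
      e⁻¹ • ∫ t in (0 : ℝ)..e, Real.exp (2 * Real.pi * t) • E.U t g⟫_ℂ).re) (𝓝[≠] 0)
      (𝓝 (⟪z, g⟫_ℂ).re) :=
    (Complex.continuous_re.tendsto _).comp (h1.inner h2)
  refine ge_of_tendsto' h3 fun e => ?_
  have h4 := (U_mean E z e).const_smul (e⁻¹ : ℝ)
  have h5 := (S_mean E h0 ha hn hc hv hg e).const_smul (e⁻¹ : ℝ)
  refine pos_both E E1 hle h0 hn hc hm (k := -Complex.I • (e⁻¹ • (E.U e z - z))) ?_ ?_
  · refine (h4.congr_deriv ?_).congr_of_eventuallyEq (Eventually.of_forall fun t => ?_)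
    · rw [smul_smul, mul_neg, Complex.I_mul_I, neg_neg, one_smul]
    · exact (E.U t).map_smul_of_tower e⁻¹ _
  · refine (h5.congr_deriv ?_).congr_of_eventuallyEq (Eventually.of_forall fun t => ?_)
    · rw [smul_comm Complex.I]
      congr 1
      rw [← intervalIntegral.integral_smul]
      refine intervalIntegral.integral_congr fun t _ => ?_
      simp only [map_smul]
      rw [smul_comm Complex.I]
    · exact (S t).map_smul_of_tower e⁻¹ _

end abs

end P0

variable {D : Type*} [NormedAddCommGroup D] [InnerProductSpace ℂ D]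
  {Q : Theory D} {A : (V → V) → D → D} {𝒜 : Set V → VonNeumannAlgebra (Completion D)}
  {S : V → ℝ → Completion D →L[ℂ] Completion D}

/-- **The generators of the null deformations are positive.** -/
theorem Gr0.gen_pos (hG : TfGen Q) (N : LNm Q A 𝒜) (h : Gr0 Q 𝒜 S) {a : V} (ha : IsNull a)
    {z w : Completion D} (hd : HasDerivAt (fun c : ℝ => S a c z) (Complex.I • w) 0) :
    0 ≤ (inner ℂ z w).re := by
  obtain ⟨b, hb, hab⟩ := H755.exists_dual ha
  obtain ⟨E⟩ := N.modW ha hb hab
  obtain ⟨E'⟩ := N.modR ha hb hab zero_le_one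
  have hbw := fun a b t L E z ha hb hab hL hx => N.bw hG a b t L E z ha hb hab hL hx
  have hu := h.uni ha
  have hsub : HM.Rg a b 1 ⊆ Wdg a b 0 := by
    rw [← HM.H584.Rg_zero]
    exact HM.H584.Rg_mono ha hb hab le_rfl zero_le_one
  refine P0.pos E E' (fun X hX => N.mono _ _ hsub X hX) (h.zero a ha)
    (fun c c' => h.add a c c' ha) (fun c z => KB.norm_le hu c z) (fun z => h.cont a z ha)
    (fun t z => ?_) (fun t c z => ?_) hd
  · have := h.mod (ublock N.toRep) hbw ha hb hab zero_le_one E E' t z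
    rwa [one_mul] at this
  · have hL := MB.isLor_b ha hb hab t
    have hbw' : ∀ z, E.U t z = Ue Q 1 (bst a b (Real.exp (-(2 * Real.pi * t)) - 1)
        (Real.exp (2 * Real.pi * t) - 1)) 0 z := fun z =>
      hbw a b t _ E z ha hb hab hL (fun x => sim_bst a b _ _ x)
    have hsim : sim 1 (bst a b (Real.exp (-(2 * Real.pi * t)) - 1)
        (Real.exp (2 * Real.pi * t) - 1)) 0 a = Real.exp (-(2 * Real.pi * t)) • a := by
      rw [sim_bst, md_comm b a, hab, ha.1]
      module
    rw [hbw', h.cov 1 _ _ a a c z one_pos (Real.exp_pos _) hL ha ha hsim, ← hbw', div_one]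

end Vale.Agent.P352.BW

end
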