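import Vale.Agent.P352.BW.H234.Wd
import Vale.Agent.P352.BW.S0.Defs

set_option linter.all false

noncomputable section

open MeasureTheory Filter Topology
open scoped ComplexConjugate InnerProductSpace BoundedContinuousFunction

namespace Vale.Agent.P352.BW.S0

open Vale.Agent.P132 (ModData expB jconj exists_modData)
open UniformSpace (Completion)
open GF H246 H496 H755 H15
open Vale.Agent.P352.BW.H234 (bo sim_bo isLor_bo mdc wdg_ne isOpen_wdg norm_om)

namespace H234

section net

variable {D : Type*} [NormedAddCommGroup D] [InnerProductSpace ℂ D] {Q : Theory D}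
  {A : (V → V) → D → D} {𝒜 : Set V → VonNeumannAlgebra (Completion D)}

variable (N : LNet Q A 𝒜) (h1 : W1Stmt Q A 𝒜) {a b : V} (ha : IsNull a) (hb : IsNull b)
  (hab : GF.mdot a b = 1)

include N ha hb hab

/-- the modular automorphisms of a wedge algebra are the boosts -/
theorem sg_mem_img (E : ModData (𝒜 (Wdg a b 0)) (om Q)) (t : ℝ) {O : Set V}
    {X : Completion D →L[ℂ] Completion D} (hX : X ∈ 𝒜 O) :
    E.sg t X ∈ 𝒜 (sim 1 (bo a b t) 0 '' O) := by
  have hL := isLor_bo ha hb hab t
  obtain ⟨Y, hY, h⟩ := N.cov 1 (bo a b t) 0 O X hX one_pos hL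
  have hbw : ∀ z, E.U t z = Ue Q 1 (bo a b t) 0 z := fun z =>
    N.bw a b t (bo a b t) E z ha hb hab hL (sim_bo t)
  have e : E.sg t X = Y := by
    ext z
    have h2 : z = E.U t (E.U (-t) z) := (E.U_apply_neg t z).symm
    rw [E.sg_apply]
    conv_rhs => rw [h2, hbw, h, ← hbw]
  rw [e]
  exact hY

include h1

/-- the vacuum is separating for the wedge algebra -/
theorem sep_wdg (X : Completion D →L[ℂ] Completion D) (hX : X ∈ 𝒜 (Wdg a b 0))
    (h0 : X (om Q) = 0) : X = 0 := by
  have hba : GF.mdot b a = 1 := by rw [mdc]; exact hab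
  have hd := h1 N _ (isOpen_wdg b a) (wdg_ne hb ha hba)
  ext z
  have hcl : IsClosed {z : Completion D | X z = 0} := isClosed_eq X.continuous continuous_const
  refine closure_minimal ?_ hcl (hd z)
  rintro _ ⟨Y, hY, rfl⟩
  have h2 := N.loc a b ha hb hab Y hY
  rw [VonNeumannAlgebra.mem_commutant_iff] at h2
  have h3 := congrArg (fun T : Completion D →L[ℂ] Completion D => T (om Q)) (h2 X hX)
  have h4 : X (Y (om Q)) = Y (X (om Q)) := h3
  change X (Y (om Q)) = 0
  rw [h4, h0, map_zero]

theorem mod_wdg : Nonempty (ModData (𝒜 (Wdg a b 0)) (om Q)) :=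
  exists_modData _ _ (norm_om Q) (h1 N _ (isOpen_wdg a b) (wdg_ne ha hb hab))
    (sep_wdg N h1 ha hb hab)

end net

end H234

end Vale.Agent.P352.BW.S0

end
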